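import Vale.Agent.P092.QCT.Ne
import Vale.Agent.P092.QC.Final
import Vale.Agent.P092.H971.ErgTd
import Vale.Agent.P092.H971.QGrpF
import Vale.Agent.P092.H333.FinQT
import Vale.Agent.P092.H866.T.Erg
import Vale.Agent.P092.QC.St

/-!
P092 (helper971), project Q for all amplifications and all classes of factors: the final theorem from
the blocks.
-/

set_option linter.all false

open scoped InnerProductSpace Topology ENNReal
open Filter ContinuousLinearMap MeasureTheory

namespace Vale.Agent.P092.QCT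

open Vale.Agent.P092.H160 (Ell2)
open Vale.Agent.P092.H103 (AF)
open Vale.Agent.P092.H515.St (IsLattice)
open Vale.Agent.P092.SR.St (ICC SuperAll)
open Vale.Agent.P092.H962
open Vale.Agent.P092.H333.Amp
open Vale.Agent.P092.QC (QF Td MauU)
open Vale.Agent.P092.H259 (PQ pq)
open Vale.Agent.P092.PA (FacS)
open Vale.Agent.P092.QT.NE (ev)

variable {P : Type} [Fintype P] {E : P → Type} [∀ i, Group (E i)] [∀ i, TopologicalSpace (E i)]
  {r : P → ℕ}

theorem pi_ev (Γ : Subgroup (∀ i, E i)) : (MonoidHom.pi (ev Γ)).range = Γ := by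
  ext x
  constructor
  · rintro ⟨g, rfl⟩
    exact g.2
  · intro hx
    exact ⟨⟨x, hx⟩, rfl⟩

theorem ev_inj (Γ : Subgroup (∀ i, E i)) : ∀ g : Γ, (∀ i, ev Γ i g = 1) → g = 1 :=
  fun g hg => Subtype.ext (funext hg)

/-- Ergodicity at all places modulo the centres. -/
theorem ergAllT (h : ∀ i, QF (E i) (r i)) (Γ : Subgroup (∀ i, E i))
    (hlat : IsLattice Γ) (hd : ∀ i, DenseRange (ev Γ i)) (hicc : ICC Γ) :
    ErgAllT fun i => (pq (E i)).comp (ev Γ i) := by
  have a0 := fun i => (h i).top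
  have a1 := fun i => (h i).lc
  have a2 := fun i => (h i).sc
  have a3 := fun i => (h i).t2
  intro Λ _ _ I _ α hα hΛ i β hβ
  rcases (h i).erg with hc | ht
  · haveI : PreconnectedSpace (PQ (E i)) :=
      (QuotientGroup.mk'_surjective (Subgroup.center (E i))).denseRange.preconnectedSpace
        continuous_quotient_mk'
    exact H866.T.ergC_conn (h i).fac hicc hΛ hα hα hβ
      ((QuotientGroup.mk'_surjective _).denseRange.comp (hd i) continuous_quotient_mk')
  · exact H971.ergC_td_quot ht hicc hα hα hβ hΛ (hd i) (fun U hU g hg =>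
      H971.ricc_fam (fun i => (h i).fac) (fun i => (h i).fin) (ev Γ) (ev_inj Γ)
        (by rw [pi_ev]; exact hlat) hicc i (hd i) hg U hU) (Subgroup.center (E i))

/-- Nonvanishing at all places modulo the centres. -/
theorem neAllT (h : ∀ i, QF (E i) (r i)) (Γ : Subgroup (∀ i, E i))
    (hlat : IsLattice Γ) (hd : ∀ i, DenseRange (ev Γ i)) (hicc : ICC Γ)
    [∀ i, MeasurableSpace (PQ (E i))] [∀ i, BorelSpace (PQ (E i))]
    (μ : ∀ i, Measure (PQ (E i))) [∀ i, (μ i).IsHaarMeasure] [∀ i, (μ i).IsMulRightInvariant] :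
    NeAllT (fun i => (pq (E i)).comp (ev Γ i)) μ := by
  have a0 := fun i => (h i).top
  have a1 := fun i => (h i).lc
  have a2 := fun i => (h i).sc
  have a3 := fun i => (h i).t2
  have b0 := fun i => (h i).fac.top
  have b1 := fun i => (h i).fac.lc
  have b2 := fun i => (h i).fac.sc
  have b3 := fun i => (h i).fac.t2
  letI : ∀ i, MeasurableSpace (E i) := fun i => borel _
  haveI : ∀ i, BorelSpace (E i) := fun i => ⟨rfl⟩
  intro Λ _ _ I _ α hα hΛ i β hβ
  obtain ⟨m, m', ξ, hT⟩ := exists_tri hα hα hβ hΛ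
  obtain ⟨n, n', ξ', hT'⟩ := exists_tri' hα hα hβ hΛ
  choose C hCh using fun i => (h i).chn
  haveI := (h i).fin
  exact neC_genU (⟨hlat.disc, hlat.covol⟩ : H515.IsLattice Γ) hicc hT hT' C
    (fun i => (h i).pos) (fun i => (h i).tgt)
    (fun i => MauU.of (h i).hmg (hCh i (h i).pos)) (fun i => pq (E i))
    (fun i => continuous_quotient_mk') μ i (hd i) (Subgroup.center (E i))
    (ergAllT h Γ hlat hd hicc Λ I α hα hΛ i β hβ)

/-- **The final theorem for lattices in products of factors of the class**, all amplifications. -/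
theorem superAll_sub (B : QT.Q.Blk) (h : ∀ i, QF (E i) (r i))
    (Γ : Subgroup (∀ i, E i)) (hlat : IsLattice Γ) (hd : ∀ i, DenseRange (ev Γ i))
    (hicc : ICC Γ) : SuperAll Γ := by
  have a0 := fun i => (h i).top
  have a1 := fun i => (h i).lc
  have a2 := fun i => (h i).sc
  have a3 := fun i => (h i).t2
  have b0 := fun i => (h i).fac.top
  have b1 := fun i => (h i).fac.lc
  have b2 := fun i => (h i).fac.sc
  have b3 := fun i => (h i).fac.t2
  letI : ∀ i, MeasurableSpace (PQ (E i)) := fun i => borel _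
  haveI : ∀ i, BorelSpace (PQ (E i)) := fun i => ⟨rfl⟩
  haveI : ∀ i, (Measure.haar : Measure (PQ (E i))).IsMulRightInvariant := fun i =>
    (h i).fac.isMulRightInvariant _
  obtain ⟨m, hm⟩ := QC.grp (fun i => (h i).fin) (fun i => (h i).fac) (ev Γ) (ev_inj Γ)
    (by rw [pi_ev]; exact hlat) hd hicc
  exact superAll_q B hicc (fun i => Measure.haar) hm (ergAllT h Γ hlat hd hicc)
    (neAllT h Γ hlat hd hicc fun i => Measure.haar)

/-- **The final theorem**, homomorphism form. -/
theorem superAll_of (B : QT.Q.Blk) (h : ∀ i, QF (E i) (r i)) {Γ : Type} [Group Γ]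
    (q : Γ →* ∀ i, E i) (hi : Function.Injective q) (hlat : IsLattice q.range)
    (hd : ∀ i, DenseRange fun g => q g i) (hicc : ICC Γ) : SuperAll Γ := by
  have e : Γ ≃* q.range := MonoidHom.ofInjective hi
  have h1 : SuperAll q.range := superAll_sub B h q.range hlat (fun j => by
    refine (hd j).mono ?_
    rintro _ ⟨g, rfl⟩
    exact ⟨⟨q g, g, rfl⟩, rfl⟩) fun g hg => H133.icc_equiv e hicc g hg
  intro Λ _ _ hΛ N p hp θ
  exact ⟨(h1 Λ hΛ N p hp (H133.transC e θ)).1,
    H133.canonicalM_transC e θ (h1 Λ hΛ N p hp _).2⟩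

/-- The final theorem for an embedding. -/
theorem superAll_emb (B : QT.Q.Blk) (h : ∀ i, QF (E i) (r i)) {Γ : Type} [Group Γ]
    (i : Γ →* ∀ j, E j) (hi : SR.St.DenseLattice i) (hicc : ICC Γ) : SuperAll Γ :=
  superAll_of B h i hi.inj hi.lat hi.dense hicc

/-- The final theorem for a class of groups. -/
theorem superAll_cls (B : QT.Q.Blk)
    (hc : ∀ (G : Type) [Group G] [TopologicalSpace G], PC.St.Cls G → ∃ r, QF G r)
    (Γ : Type) [Group Γ] (h : QC.St.ClassLattice Γ) : SuperAll Γ := by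
  obtain ⟨hicc, I, _, G, _, _, i, hG, hi⟩ := h
  choose r hr using fun j => hc (G j) (hG j)
  exact superAll_emb B hr i hi hicc

end Vale.Agent.P092.QCT
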