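import Vale.Agent.P092.QCT.Final
import Vale.Agent.P092.H333.BlkT
import Vale.Agent.P092.H714.ClsQ

/-!
P092 (helper971), project Q for all amplifications and all classical factors.
-/

set_option linter.all false

namespace Vale.Agent.P092.QCT

open Vale.Agent.P092.H160 (Ell2)
open Vale.Agent.P092.SR.St (ICC SuperAll)

/-- **The main theorem for the class `Cls`**, all amplifications. -/
theorem superAll_class (Γ : Type) [Group Γ] (h : QC.St.ClassLattice Γ) : SuperAll Γ :=
  superAll_cls H333.Amp.blkT (fun _ _ _ h => H714.Cl.cls_qf h) Γ h

end Vale.Agent.P092.QCT
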