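import Vale.Agent.P092.QCT.Final
import Vale.Agent.P092.H58.QtEx
import Vale.Agent.P092.H714.FinF
import Vale.Agent.P092.H387.PsF

/-!
P092 (helper971), project Q for all amplifications and all classical factors: the final statement,
without hypotheses, with the named examples.
-/

set_option linter.all false

open Vale.Agent.P092.H515.St Vale.Agent.P092.SR.St Vale.Agent.P092.Q.St Vale.Agent.P092.PC.StF

namespace Vale.Agent.P092.QCT

open Matrix

/-- **The main theorem for the final class of factors**, all amplifications. -/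
theorem superAll_classF (Γ : Type) [Group Γ] (h : ClassLattice Γ) : SuperAll Γ := by
  obtain ⟨hicc, I, _, G, _, _, i, hG, hi⟩ := h
  choose r hr using fun j => H714.ClF.clsF_qf (hG j)
  exact superAll_emb H58.blkT hr i hi hicc

/-- The final statement with the named examples. -/
theorem finalQCT :
    (∀ (Γ : Type) [Group Γ], ClassLattice Γ → SuperAll Γ) ∧
    (∀ n N : ℕ, Odd n → 3 ≤ n → 2 ≤ N →
      SuperAll (SpecialLinearGroup (Fin n) (Localization.Away (N : ℤ)))) ∧
    (∀ n N : ℕ, 2 ≤ n → 2 ≤ N →
      SuperAll (SpecialLinearGroup (Fin n) (Localization.Away (N : ℤ)) ⧸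
        Subgroup.center (SpecialLinearGroup (Fin n) (Localization.Away (N : ℤ))))) ∧
    ∀ (F : Type) [Field F] [Finite F] (n : ℕ), 2 ≤ n → Nat.Coprime n (Nat.card F - 1) →
      SuperAll (SpecialLinearGroup (Fin n) (LaurentPolynomial F)) :=
  ⟨fun Γ _ h => superAll_classF Γ h,
    fun n N hn h3 hN => superAll_classF _ (H387.N.classF_SLN hn h3 hN),
    fun n N h2 hN => superAll_classF _ (H387.N.classF_PSLN h2 hN),
    fun F _ _ n hn hc => H58.finalQT.2.2 F n hn hc⟩

end Vale.Agent.P092.QCT
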