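import Vale.Agent.P092.QCT.FinU
import Vale.Agent.P092.UN.ClsB
import Vale.Agent.P092.H259.Re.Cls

/-!
P092 (helper971): the final statement for products, with all simple real groups.
-/

set_option linter.all false

open Matrix

namespace Vale.Agent.P092.QCT

/-- **The main theorem with all simple real groups.** -/
theorem superAll_classB (Γ : Type) [Group Γ] (h : UN.ClassLatticeB Γ) : UN.SuperAll Γ := by
  obtain ⟨hicc, I, hI, E, hg, ht, i, hE, hi⟩ := h
  refine superAll_gen hicc i (fun j => ?_) hi
  obtain ⟨ht, N, hn, hf, ho, hc⟩ := hE j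
  refine ⟨ht, N, hn, hf, ho, ?_⟩
  rcases hc with hc | hc
  · exact UN.cls_qf hc
  · exact H259.Re.isReal_qf hc

/-- **The final statement** with the named examples. -/
theorem finalB :
    (∀ (Γ : Type) [Group Γ], UN.ClassLatticeB Γ → UN.SuperAll Γ) ∧
    (∀ n N : ℕ, 2 ≤ n → 2 ≤ N →
      UN.SuperAll (SpecialLinearGroup (Fin n) (Localization.Away (N : ℤ)) ⧸
        Subgroup.center (SpecialLinearGroup (Fin n) (Localization.Away (N : ℤ)))) ∧
      UN.SuperAll (GL (Fin n) (Localization.Away (N : ℤ)) ⧸
        Subgroup.center (GL (Fin n) (Localization.Away (N : ℤ))))) ∧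
    ∀ (F : Type) [Field F] [Finite F] (n : ℕ), 2 ≤ n →
      UN.SuperAll (SpecialLinearGroup (Fin n) (LaurentPolynomial F) ⧸
        Subgroup.center (SpecialLinearGroup (Fin n) (LaurentPolynomial F))) :=
  ⟨superAll_classB, finalU.2⟩

end Vale.Agent.P092.QCT
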