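import Vale.Agent.P092.UN.ClsE
import Vale.Agent.P092.UN.ClsV
import Vale.Agent.P092.VR.All
import Vale.Agent.P092.H387.PsF
import Vale.Agent.P092.H387.Fx3
import Vale.Agent.P092.H628.VE5

/-!
P092 (helper971), project Q for all amplifications, all classical factors and all isogeny types: the
final statement in compact letters, with the named examples.
-/

set_option linter.all false

open Matrix

namespace Vale.Agent.P092.QCT

/-- **The general theorem**: lattices in products of overgroups of finite index of factors. -/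
theorem superAll_gen {Γ : Type} [Group Γ] (hicc : UN.ICC Γ) {I : Type} [Fintype I]
    {E : I → Type} [∀ j, Group (E j)] [∀ j, TopologicalSpace (E j)] (i : Γ →* ∀ j, E j)
    (hE : ∀ j, IsTopologicalGroup (E j) ∧ ∃ N : Subgroup (E j), N.Normal ∧ N.FiniteIndex ∧
      IsOpen (N : Set (E j)) ∧ ∃ r, QC.QF N r) (hi : UN.DenseLattice i) : UN.SuperAll Γ := by
  have h : ∀ j, ∃ (N : Subgroup (E j)) (r : ℕ), VR.Ov N.subtype r := fun j => by
    obtain ⟨ht, N, hn, hf, ho, r, hr⟩ := hE j
    exact ⟨N, r, VR.ov_subtype ht hn hf ho hr⟩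
  choose N r hr using h
  have hi' := (UN.denseLattice_iff i).1 hi
  exact UN.superAll_of (VR.superAll_ovh hr i hi'.inj hi'.lat hi'.dense hicc)

/-- **The main theorem in compact letters.** -/
theorem superAll_classVU (Γ : Type) [Group Γ] (h : UN.ClassLatticeV Γ) : UN.SuperAll Γ := by
  obtain ⟨hicc, I, hI, E, hg, ht, i, hE, hi⟩ := h
  refine superAll_gen hicc i (fun j => ?_) hi
  obtain ⟨ht, N, hn, hf, ho, hc⟩ := hE j
  exact ⟨ht, N, hn, hf, ho, UN.cls_qf hc⟩

/-- A group of the class is an open normal subgroup of finite index of itself. -/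
theorem clsV_of_cls {G : Type} [Group G] [TopologicalSpace G] (h : PC.StF.Cls G) :
    VR.St.ClsV G := by
  obtain ⟨r, hr⟩ := H714.ClF.clsF_qf h
  have e : (MonoidHom.id G).range = ⊤ := MonoidHom.range_eq_top.2 Function.surjective_id
  refine ⟨hr.top, G, inferInstance, inferInstance, MonoidHom.id G, h, continuous_id,
    Function.injective_id, IsOpenMap.id, ?_, ?_⟩
  · rw [e]
    infer_instance
  · rw [e]
    infer_instance

/-- Lattices of the class. -/
theorem superAll_classFU {Γ : Type} [Group Γ] (h : PC.StF.ClassLattice Γ) : UN.SuperAll Γ := by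
  refine UN.superAll_of (VR.superAll_classV Γ ?_)
  obtain ⟨hicc, I, hI, E, hg, ht, i, hE, hi⟩ := h
  exact ⟨hicc, I, hI, E, hg, ht, i, fun j => clsV_of_cls (hE j), hi⟩

/-- **The final statement** with the named examples. -/
theorem finalU :
    (∀ (Γ : Type) [Group Γ], UN.ClassLatticeV Γ → UN.SuperAll Γ) ∧
    (∀ n N : ℕ, 2 ≤ n → 2 ≤ N →
      UN.SuperAll (SpecialLinearGroup (Fin n) (Localization.Away (N : ℤ)) ⧸
        Subgroup.center (SpecialLinearGroup (Fin n) (Localization.Away (N : ℤ)))) ∧
      UN.SuperAll (GL (Fin n) (Localization.Away (N : ℤ)) ⧸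
        Subgroup.center (GL (Fin n) (Localization.Away (N : ℤ))))) ∧
    ∀ (F : Type) [Field F] [Finite F] (n : ℕ), 2 ≤ n →
      UN.SuperAll (SpecialLinearGroup (Fin n) (LaurentPolynomial F) ⧸
        Subgroup.center (SpecialLinearGroup (Fin n) (LaurentPolynomial F))) :=
  ⟨fun Γ _ h => superAll_classVU Γ h,
    fun n N h2 hN => ⟨superAll_classFU (H387.N.classF_PSLN h2 hN),
      UN.superAll_of (VR.superAll_classV _ (VE628.classV_PGLN h2 hN))⟩,
    fun F _ _ n hn => superAll_classFU (H387.Fx.classF_PSLF F hn)⟩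

end Vale.Agent.P092.QCT
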